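import Mathlib

/-!
# Dvoretzky's theorem (with constant 3) from the Dvoretzky–Rogers lemma

Everything is done in `L¹` for the standard Gaussian measure: a sign-flip argument shows that the
mean of the norm is large, rotation invariance shows that the mean deviation is small compared with
the mean, and a net argument finishes.
-/

open MeasureTheory ProbabilityTheory
open scoped RealInnerProductSpace

namespace Crest.Agent.Lib.Dvoretzky

section general
variable {E : Type*} [NormedAddCommGroup E] [InnerProductSpace ℝ E] [FiniteDimensional ℝ E]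
  [MeasurableSpace E] [BorelSpace E]
variable {X : Type*} [NormedAddCommGroup X] [NormedSpace ℝ X]

lemma integrable_norm_clm (S : E →L[ℝ] X) : Integrable (fun g => ‖S g‖) (stdGaussian E) := by
  refine Integrable.mono' ((IsGaussian.integrable_id (μ := stdGaussian E)).norm.const_mul ‖S‖)
    (by fun_prop) ?_
  filter_upwards with g
  simpa using S.le_opNorm g

lemma integral_abs_dual_le (φ : StrongDual ℝ E) (hφ : ‖φ‖ ≤ 1) :
    ∫ g, |φ g| ∂(stdGaussian E) ≤ 1 := by
  have h2 : MemLp φ 2 (stdGaussian E) := IsGaussian.memLp_dual _ φ 2 (by simp)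
  have hv : ∫ g, (φ g) ^ 2 ∂(stdGaussian E) = ‖φ‖ ^ 2 := by
    rw [← variance_dual_stdGaussian, variance_of_integral_eq_zero h2.aemeasurable
      (integral_strongDual_stdGaussian φ)]
  have hi : Integrable (fun g => (φ g) ^ 2) (stdGaussian E) := h2.integrable_sq
  calc ∫ g, |φ g| ∂(stdGaussian E) ≤ ∫ g, ((φ g) ^ 2 / 2 + 1 / 2) ∂(stdGaussian E) := by
        refine integral_mono (IsGaussian.integrable_dual _ φ).abs
          ((hi.div_const 2).add (integrable_const _)) fun g => ?_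
        have := sq_abs (φ g)
        dsimp only
        nlinarith [sq_nonneg (|φ g| - 1)]
    _ = ‖φ‖ ^ 2 / 2 + 1 / 2 := by
        rw [integral_add (hi.div_const 2) (integrable_const _), integral_div, hv]
        simp
    _ ≤ 1 := by nlinarith [norm_nonneg φ]

lemma rot_mp (θ : ℝ) : MeasurePreserving (ContinuousLinearMap.rotation (E := E) θ)
    ((stdGaussian E).prod (stdGaussian E)) ((stdGaussian E).prod (stdGaussian E)) :=
  ⟨by fun_prop, IsGaussian.map_rotation_eq_self (by simp) θ⟩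

lemma integrable_fst (S : E →L[ℝ] X) :
    Integrable (fun p : E × E => ‖S p.1‖) ((stdGaussian E).prod (stdGaussian E)) :=
  (integrable_norm_clm S).comp_fst _

lemma integrable_rot (S : E →L[ℝ] X) (θ : ℝ) :
    Integrable (fun p : E × E => ‖S (ContinuousLinearMap.rotation θ p).1‖)
      ((stdGaussian E).prod (stdGaussian E)) :=
  (rot_mp θ).integrable_comp_of_integrable (integrable_fst S)

lemma integral_comp_rot (θ : ℝ) (G : E × E → ℝ) (hG : Continuous G) :
    ∫ p, G (ContinuousLinearMap.rotation θ p) ∂((stdGaussian E).prod (stdGaussian E))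
      = ∫ p, G p ∂((stdGaussian E).prod (stdGaussian E)) := by
  conv_rhs => rw [← (rot_mp (E := E) θ).map_eq]
  rw [integral_map (by fun_prop) hG.aestronglyMeasurable]

/-- mean distance between the norm at a point and at its rotation -/
noncomputable def D (S : E →L[ℝ] X) (θ : ℝ) : ℝ :=
  ∫ p : E × E, |‖S p.1‖ - ‖S (ContinuousLinearMap.rotation θ p).1‖|
    ∂((stdGaussian E).prod (stdGaussian E))

lemma D_add (S : E →L[ℝ] X) (θ δ : ℝ) : D S (θ + δ) ≤ D S θ + D S δ := by
  have h1 : D S δ = ∫ p : E × E, |‖S (ContinuousLinearMap.rotation θ p).1‖ -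
      ‖S (ContinuousLinearMap.rotation (θ + δ) p).1‖| ∂((stdGaussian E).prod (stdGaussian E)) := by
    rw [D, ← integral_comp_rot θ _ (by fun_prop)]
    congr 1
    ext p
    congr 4
    simp only [ContinuousLinearMap.rotation_apply, Real.cos_add, Real.sin_add]
    module
  have i1 : Integrable (fun p : E × E => |‖S p.1‖ - ‖S (ContinuousLinearMap.rotation θ p).1‖|)
      ((stdGaussian E).prod (stdGaussian E)) := ((integrable_fst S).sub (integrable_rot S θ)).abs
  have i2 : Integrable (fun p : E × E => |‖S (ContinuousLinearMap.rotation θ p).1‖ -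
      ‖S (ContinuousLinearMap.rotation (θ + δ) p).1‖|) ((stdGaussian E).prod (stdGaussian E)) :=
    ((integrable_rot S θ).sub (integrable_rot S _)).abs
  rw [h1, D, D, ← integral_add i1 i2]
  refine integral_mono ((integrable_fst S).sub (integrable_rot S _)).abs (i1.add i2) fun p => ?_
  exact abs_sub_le _ _ _

omit [BorelSpace E] in
lemma D_zero (S : E →L[ℝ] X) : D S 0 = 0 := by
  simp [D, ContinuousLinearMap.rotation_apply]

lemma D_mul (S : E →L[ℝ] X) (δ : ℝ) (K : ℕ) : D S (K * δ) ≤ K * D S δ := by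
  induction K with
  | zero => simp [D_zero]
  | succ K ih =>
    have := D_add S (K * δ) δ
    push_cast
    rw [add_mul, add_mul, one_mul, one_mul]
    linarith

lemma D_le (S : E →L[ℝ] X) (hS : ∀ g, ‖S g‖ ≤ ‖g‖) (δ : ℝ) :
    D S δ ≤ 2 * ((1 - Real.cos δ) * ∫ g, ‖S g‖ ∂(stdGaussian E) + |Real.sin δ|) := by
  set γ := stdGaussian E with hγ
  set h : E × E → ℝ := fun p => ‖S p.1‖ - ‖S (ContinuousLinearMap.rotation δ p).1‖ with hh
  have hi : Integrable h (γ.prod γ) := (integrable_fst S).sub (integrable_rot S δ)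
  have h0 : ∫ p, h p ∂(γ.prod γ) = 0 := by
    rw [hh, integral_sub (integrable_fst S) (integrable_rot S δ),
      integral_comp_rot δ (fun p => ‖S p.1‖) (by fun_prop), sub_self]
  have hp : Integrable (fun p => max (h p) 0) (γ.prod γ) := hi.pos_part
  have h1 : D S δ = 2 * ∫ p, max (h p) 0 ∂(γ.prod γ) := by
    have : D S δ = ∫ p, (2 * max (h p) 0 - h p) ∂(γ.prod γ) := by
      unfold D
      congr 1
      ext p
      change |h p| = _
      rcases le_total (h p) 0 with hp | hp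
      · rw [abs_of_nonpos hp, max_eq_right hp]; ring
      · rw [abs_of_nonneg hp, max_eq_left hp]; ring
    rw [this, integral_sub (hp.const_mul 2) hi, h0, integral_const_mul, sub_zero]
  rw [h1]
  gcongr
  rw [integral_prod _ hp]
  have hcos : 0 ≤ 1 - Real.cos δ := by linarith [Real.cos_le_one δ]
  have hb : ∀ A : E, ∫ B, max (h (A, B)) 0 ∂γ ≤ (1 - Real.cos δ) * ‖S A‖ + |Real.sin δ| := by
    intro A
    obtain ⟨φ, hφ1, hφ⟩ := exists_dual_vector'' ℝ (S A)
    have hψ : ‖φ.comp S‖ ≤ 1 := by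
      refine ContinuousLinearMap.opNorm_le_bound _ zero_le_one fun g => ?_
      calc ‖φ (S g)‖ ≤ ‖φ‖ * ‖S g‖ := φ.le_opNorm _
        _ ≤ 1 * ‖g‖ := by gcongr; exact hS g
    have hint : Integrable (fun B => |(φ.comp S) B|) γ :=
      (IsGaussian.integrable_dual _ (φ.comp S)).abs
    calc ∫ B, max (h (A, B)) 0 ∂γ
        ≤ ∫ B, ((1 - Real.cos δ) * ‖S A‖ + |Real.sin δ| * |(φ.comp S) B|) ∂γ := by
          refine integral_mono_of_nonneg (Filter.Eventually.of_forall fun B => le_max_right _ _)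
            ((integrable_const _).add (hint.const_mul _)) (Filter.Eventually.of_forall fun B => ?_)
          refine max_le ?_ (by positivity)
          have e1 : φ (S (ContinuousLinearMap.rotation δ (A, B)).1)
              = Real.cos δ * ‖S A‖ + Real.sin δ * (φ.comp S) B := by
            simp only [ContinuousLinearMap.rotation_apply, map_add, map_smul, smul_eq_mul, hφ]
            rfl
          have e2 : φ (S (ContinuousLinearMap.rotation δ (A, B)).1)
              ≤ ‖S (ContinuousLinearMap.rotation δ (A, B)).1‖ := by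
            calc _ ≤ ‖φ (S (ContinuousLinearMap.rotation δ (A, B)).1)‖ := le_abs_self _
              _ ≤ ‖φ‖ * ‖S (ContinuousLinearMap.rotation δ (A, B)).1‖ := φ.le_opNorm _
              _ ≤ 1 * ‖S (ContinuousLinearMap.rotation δ (A, B)).1‖ := by gcongr
              _ = _ := one_mul _
          have e3 : -(Real.sin δ * (φ.comp S) B) ≤ |Real.sin δ| * |(φ.comp S) B| := by
            rw [← abs_mul]; exact neg_le_abs _
          simp only [hh]
          linarith
      _ = (1 - Real.cos δ) * ‖S A‖ + |Real.sin δ| * ∫ B, |(φ.comp S) B| ∂γ := by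
          rw [integral_add (integrable_const _) (hint.const_mul _), integral_const,
            integral_const_mul]
          simp
      _ ≤ (1 - Real.cos δ) * ‖S A‖ + |Real.sin δ| * 1 := by
          gcongr
          exact integral_abs_dual_le _ hψ
      _ = _ := by ring
  calc ∫ A, ∫ B, max (h (A, B)) 0 ∂γ ∂γ
      ≤ ∫ A, ((1 - Real.cos δ) * ‖S A‖ + |Real.sin δ|) ∂γ :=
        integral_mono hp.integral_prod_left
          (((integrable_norm_clm S).const_mul _).add (integrable_const _)) hb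
    _ = _ := by
        rw [integral_add ((integrable_norm_clm S).const_mul _) (integrable_const _),
          integral_const_mul]
        simp [hγ]

lemma dev_le_D (S : E →L[ℝ] X) :
    ∫ A, |‖S A‖ - ∫ g, ‖S g‖ ∂(stdGaussian E)| ∂(stdGaussian E) ≤ D S (Real.pi / 2) := by
  set γ := stdGaussian E with hγ
  have hi : Integrable (fun p : E × E => |‖S p.1‖ - ‖S p.2‖|) (γ.prod γ) :=
    ((integrable_fst S).sub ((integrable_norm_clm S).comp_snd _)).abs
  have : D S (Real.pi / 2) = ∫ p : E × E, |‖S p.1‖ - ‖S p.2‖| ∂(γ.prod γ) := by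
    simp [D, ContinuousLinearMap.rotation_apply, hγ]
  rw [this, integral_prod _ hi]
  refine integral_mono ((integrable_norm_clm S).sub (integrable_const _)).abs
    hi.integral_prod_left fun A => ?_
  have e : ‖S A‖ - ∫ g, ‖S g‖ ∂γ = ∫ B, (‖S A‖ - ‖S B‖) ∂γ := by
    rw [integral_sub (integrable_const _) (integrable_norm_clm S)]
    simp [hγ]
  dsimp only
  rw [e]
  exact abs_integral_le_integral_abs

/-- The mean deviation of a `1`-Lipschitz seminorm is small compared with its mean. -/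
lemma dev_le (S : E →L[ℝ] X) (hS : ∀ g, ‖S g‖ ≤ ‖g‖) (K : ℕ) (hK : 0 < K) :
    ∫ A, |‖S A‖ - ∫ g, ‖S g‖ ∂(stdGaussian E)| ∂(stdGaussian E)
      ≤ 4 / K * ∫ g, ‖S g‖ ∂(stdGaussian E) + 4 := by
  set M := ∫ g, ‖S g‖ ∂(stdGaussian E) with hM
  have hM0 : 0 ≤ M := integral_nonneg fun _ => norm_nonneg _
  have hK' : (0 : ℝ) < K := by exact_mod_cast hK
  set δ : ℝ := Real.pi / 2 / K with hδ
  have hδ0 : 0 ≤ δ := by positivity
  have hKδ : K * δ = Real.pi / 2 := by rw [hδ]; field_simp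
  have h1 := dev_le_D S
  have h2 := D_mul S δ K
  have h3 := D_le S hS δ
  rw [hKδ] at h2
  have hc : 1 - Real.cos δ ≤ δ ^ 2 / 2 := by linarith [Real.one_sub_sq_div_two_le_cos (x := δ)]
  have hs : |Real.sin δ| ≤ δ := by simpa [abs_of_nonneg hδ0] using Real.abs_sin_le_abs (x := δ)
  have hpi : K * δ ≤ 2 := by rw [hKδ]; linarith [Real.pi_le_four]
  have hδK : δ ≤ 2 / K := by rw [le_div_iff₀ hK']; linarith
  calc _ ≤ K * D S δ := h1.trans h2
    _ ≤ K * (2 * (δ ^ 2 / 2 * M + δ)) := by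
        gcongr
        refine h3.trans ?_
        gcongr
    _ = (K * δ) * δ * M + 2 * (K * δ) := by ring
    _ ≤ 2 * (2 / K) * M + 2 * 2 := by gcongr
    _ = _ := by ring

/-- a unit combination of independent standard Gaussian vectors is standard Gaussian -/
lemma map_comb {k : ℕ} (a : EuclideanSpace ℝ (Fin k)) (ha : ‖a‖ = 1) :
    (Measure.pi fun _ : Fin k => stdGaussian E).map (fun ω => ∑ i, a i • ω i) = stdGaussian E := by
  apply Measure.ext_of_charFun
  ext t
  rw [charFun_apply, integral_map (Measurable.aemeasurable (by fun_prop))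
    (Measurable.aestronglyMeasurable (by fun_prop))]
  simp_rw [sum_inner, Complex.ofReal_sum, Finset.sum_mul, Complex.exp_sum,
    integral_fintype_prod_eq_prod
      (f := fun i (x : E) ↦ Complex.exp (⟪a i • x, t⟫ * Complex.I))]
  have : ∀ i, ∫ x, Complex.exp (⟪a i • x, t⟫ * Complex.I) ∂(stdGaussian E)
      = Complex.exp (-(‖t‖ : ℂ) ^ 2 / 2 * ((a i : ℝ) : ℂ) ^ 2) := by
    intro i
    have := charFun_stdGaussian (a i • t)
    rw [charFun_apply] at this
    simp_rw [real_inner_smul_left]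
    simp_rw [real_inner_smul_right] at this
    rw [this, norm_smul]
    congr 1
    have : ((‖a i‖ : ℝ) : ℂ) ^ 2 = ((a i : ℝ) : ℂ) ^ 2 := by
      rw [← Complex.ofReal_pow, ← Complex.ofReal_pow, Real.norm_eq_abs, sq_abs]
    push_cast
    rw [mul_pow, this]
    ring
  simp_rw [this]
  rw [← Complex.exp_sum, ← Finset.mul_sum, charFun_stdGaussian]
  have h1 : ∑ i, ((a i : ℝ) : ℂ) ^ 2 = 1 := by
    have := EuclideanSpace.real_norm_sq_eq a
    rw [ha] at this
    exact_mod_cast (by linarith : ∑ i, a i ^ 2 = 1)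
  rw [h1, mul_one]

end general

section levy
variable {X : Type*} [NormedAddCommGroup X] [NormedSpace ℝ X]

/-- coordinatewise sign flip -/
noncomputable def flip {m : ℕ} (ε : Fin m → Bool) :
    EuclideanSpace ℝ (Fin m) ≃ₗᵢ[ℝ] EuclideanSpace ℝ (Fin m) :=
  LinearIsometryEquiv.piLpCongrRight 2
    (fun j => if ε j then LinearIsometryEquiv.refl ℝ ℝ else LinearIsometryEquiv.neg ℝ)

lemma flip_apply {m : ℕ} (ε : Fin m → Bool) (g : EuclideanSpace ℝ (Fin m)) (j : Fin m) :
    flip ε g j = if ε j then g j else - g j := by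
  simp only [flip, LinearIsometryEquiv.piLpCongrRight_apply]
  split_ifs <;> simp

/-- flip all signs except the `i`-th -/
def sw {m : ℕ} (i : Fin m) : (Fin m → Bool) ≃ (Fin m → Bool) :=
  Function.Involutive.toPerm (fun ε j => if j = i then ε j else !ε j) (by
    intro ε; funext j; by_cases h : j = i <;> simp [h])

lemma sum_flip_ge {m : ℕ} (S : EuclideanSpace ℝ (Fin m) →L[ℝ] X)
    (hS : ∀ i, (1 / 3 : ℝ) ≤ ‖S (EuclideanSpace.single i 1)‖) (g : EuclideanSpace ℝ (Fin m))
    (i : Fin m) :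
    (Fintype.card (Fin m → Bool) : ℝ) * (|g i| / 3) ≤ ∑ ε, ‖S (flip ε g)‖ := by
  have h1 : ∑ ε, ‖S (flip (sw i ε) g)‖ = ∑ ε, ‖S (flip ε g)‖ :=
    Equiv.sum_comp (sw i) (fun ε => ‖S (flip ε g)‖)
  have h2 : ∀ ε : Fin m → Bool, 2 * (|g i| / 3) ≤ ‖S (flip ε g)‖ + ‖S (flip (sw i ε) g)‖ := by
    intro ε
    have e : flip ε g + flip (sw i ε) g
        = (2 * flip ε g i) • EuclideanSpace.single i (1 : ℝ) := by
      ext j
      by_cases h : j = i
      · subst h
        simp only [PiLp.add_apply, flip_apply, sw, Function.Involutive.coe_toPerm, if_true,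
          PiLp.smul_apply, PiLp.single_apply, smul_eq_mul, mul_one]
        ring
      · simp only [PiLp.add_apply, flip_apply, sw, Function.Involutive.coe_toPerm, h, if_false,
          PiLp.smul_apply, PiLp.single_apply, smul_eq_mul, mul_zero]
        cases ε j <;> simp
    have e2 : |flip ε g i| = |g i| := by
      rw [flip_apply]; split_ifs <;> simp
    calc 2 * (|g i| / 3) = 2 * |g i| * (1 / 3) := by ring
      _ ≤ 2 * |g i| * ‖S (EuclideanSpace.single i 1)‖ := by gcongr; exact hS i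
      _ = ‖S (flip ε g + flip (sw i ε) g)‖ := by
          rw [e, map_smul, norm_smul, Real.norm_eq_abs, abs_mul, e2]; simp
      _ ≤ _ := by rw [map_add]; exact norm_add_le _ _
  have h3 := Finset.sum_le_sum fun ε (_ : ε ∈ Finset.univ) => h2 ε
  rw [Finset.sum_add_distrib, h1, Finset.sum_const, nsmul_eq_mul, Finset.card_univ] at h3
  linarith

lemma box_measure (m : ℕ) (L : ℝ) :
    stdGaussian (EuclideanSpace ℝ (Fin m)) {g | ∀ i, |g i| ≤ L}
      = (gaussianReal 0 1 (Set.Icc (-L) L)) ^ m := by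
  have hm : MeasurableSet {g : EuclideanSpace ℝ (Fin m) | ∀ i, |g i| ≤ L} := by
    rw [Set.ofPred_forall]
    exact MeasurableSet.iInter fun i => measurableSet_le (by fun_prop) (by fun_prop)
  rw [← map_pi_eq_stdGaussian, Measure.map_apply (by fun_prop) hm]
  have : (WithLp.toLp 2) ⁻¹' {g : EuclideanSpace ℝ (Fin m) | ∀ i, |g i| ≤ L}
      = Set.pi Set.univ fun _ => Set.Icc (-L) L := by
    ext x
    simp [abs_le, Pi.le_def, forall_and]
  rw [this, Measure.pi_pi]
  simp

lemma gauss_Icc_lt_one (L : ℝ) : (gaussianReal 0 1).real (Set.Icc (-L) L) < 1 := by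
  have h1 : gaussianReal 0 1 (Set.Icc (-L) L)ᶜ ≠ 0 := by
    intro h
    have := gaussianReal_absolutelyContinuous' 0 (v := 1) one_ne_zero h
    have h2 : volume (Set.Ioi L) ≤ volume (Set.Icc (-L) L)ᶜ :=
      measure_mono fun x hx hx' => absurd hx'.2 (not_le.2 hx)
    rw [this, Real.volume_Ioi] at h2
    simp at h2
  have h2 := probReal_compl_eq_one_sub (μ := gaussianReal 0 1) (s := Set.Icc (-L) L)
    measurableSet_Icc
  have h3 : 0 < (gaussianReal 0 1).real (Set.Icc (-L) L)ᶜ :=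
    ENNReal.toReal_pos h1 (measure_ne_top _ _)
  linarith

lemma mean_ge {m : ℕ} (S : EuclideanSpace ℝ (Fin m) →L[ℝ] X)
    (hS : ∀ i, (1 / 3 : ℝ) ≤ ‖S (EuclideanSpace.single i 1)‖) (L : ℝ) :
    L / 3 * (1 - ((gaussianReal 0 1).real (Set.Icc (-L) L)) ^ m)
      ≤ ∫ g, ‖S g‖ ∂(stdGaussian (EuclideanSpace ℝ (Fin m))) := by
  set γ := stdGaussian (EuclideanSpace ℝ (Fin m)) with hγ
  set B : Set (EuclideanSpace ℝ (Fin m)) := {g | ∀ i, |g i| ≤ L} with hB
  have hm : MeasurableSet B := by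
    rw [hB, Set.ofPred_forall]
    exact MeasurableSet.iInter fun i => measurableSet_le (by fun_prop) (by fun_prop)
  have hBc : γ.real Bᶜ = 1 - ((gaussianReal 0 1).real (Set.Icc (-L) L)) ^ m := by
    rw [probReal_compl_eq_one_sub hm, Measure.real, hγ, hB, box_measure, ENNReal.toReal_pow]
    rfl
  set c : ℝ := (Fintype.card (Fin m → Bool) : ℝ) with hc
  have hc0 : 0 < c := by rw [hc]; exact_mod_cast Fintype.card_pos
  have hint : ∀ ε : Fin m → Bool, Integrable (fun g => ‖S (flip ε g)‖) γ := fun ε =>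
    integrable_norm_clm (S.comp (flip ε).toContinuousLinearEquiv.toContinuousLinearMap)
  have heq : ∀ ε : Fin m → Bool, ∫ g, ‖S (flip ε g)‖ ∂γ = ∫ g, ‖S g‖ ∂γ := by
    intro ε
    conv_rhs => rw [hγ, ← stdGaussian_map (flip ε)]
    rw [integral_map (by fun_prop) (by fun_prop)]
  have h1 : ∫ g, ∑ ε, ‖S (flip ε g)‖ ∂γ = c * ∫ g, ‖S g‖ ∂γ := by
    rw [integral_finsetSum _ fun ε _ => hint ε]
    simp_rw [heq]
    rw [Finset.sum_const, nsmul_eq_mul, Finset.card_univ]
  have h2 : ∫ g, Bᶜ.indicator (fun _ => c * (L / 3)) g ∂γ ≤ ∫ g, ∑ ε, ‖S (flip ε g)‖ ∂γ := by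
    refine integral_mono ((integrable_const _).indicator hm.compl)
      (integrable_finsetSum _ fun ε _ => hint ε) fun g => ?_
    by_cases hg : g ∈ Bᶜ
    · rw [Set.indicator_of_mem hg]
      simp only [hB, Set.mem_compl_iff, Set.mem_ofPred_eq, not_forall, not_le] at hg
      obtain ⟨i, hi⟩ := hg
      refine le_trans ?_ (sum_flip_ge S hS g i)
      gcongr
    · rw [Set.indicator_of_notMem hg]
      positivity
  rw [integral_indicator_const _ hm.compl, hBc, h1, smul_eq_mul] at h2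
  refine le_of_mul_le_mul_left ?_ hc0
  linarith

lemma exists_mean_large (R : ℝ) : ∃ m : ℕ, ∀ S : EuclideanSpace ℝ (Fin m) →L[ℝ] X,
    (∀ i, (1 / 3 : ℝ) ≤ ‖S (EuclideanSpace.single i 1)‖) →
    R ≤ ∫ g, ‖S g‖ ∂(stdGaussian (EuclideanSpace ℝ (Fin m))) := by
  set L := 6 * |R| with hL
  obtain ⟨m, hm⟩ := exists_pow_lt_of_lt_one (show (0 : ℝ) < 1 / 2 by norm_num)
    (gauss_Icc_lt_one L)
  refine ⟨m, fun S hS => le_trans ?_ (mean_ge S hS L)⟩
  have h0 : 0 ≤ |R| := abs_nonneg R
  calc R ≤ |R| := le_abs_self R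
    _ = L / 3 * (1 / 2) := by rw [hL]; ring
    _ ≤ _ := by
      have : 0 ≤ L / 3 := by positivity
      gcongr
      linarith

end levy

theorem dvoretzky_of_rogers {X : Type*} [NormedAddCommGroup X] [NormedSpace ℝ X]
    (hDR : ∀ m : ℕ, ∃ S : EuclideanSpace ℝ (Fin m) →ₗ[ℝ] X,
      (∀ g, ‖S g‖ ≤ ‖g‖) ∧ ∀ i, (1/3 : ℝ) ≤ ‖S (EuclideanSpace.single i 1)‖) (k : ℕ) :
    ∃ T : EuclideanSpace ℝ (Fin k) →ₗ[ℝ] X, ∀ a, ‖a‖ ≤ 3 * ‖T a‖ ∧ ‖T a‖ ≤ ‖a‖ := by
  obtain ⟨N', hNs, hNf, hNc⟩ := finite_cover_balls_of_compact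
    (isCompact_sphere (0 : EuclideanSpace ℝ (Fin k)) 1) (show (0 : ℝ) < 1 / 4 by norm_num)
  set N := hNf.toFinset with hN
  set n := N.card with hn
  obtain ⟨m, hm⟩ := exists_mean_large (X := X) (80 * n + 1)
  obtain ⟨S₀, hS1, hS2⟩ := hDR m
  set S : EuclideanSpace ℝ (Fin m) →L[ℝ] X := LinearMap.toContinuousLinearMap S₀ with hSdef
  have hS1' : ∀ g, ‖S g‖ ≤ ‖g‖ := hS1
  have hM := hm S hS2
  have hV := dev_le S hS1' (80 * n + 1) (by omega)
  set γ := stdGaussian (EuclideanSpace ℝ (Fin m)) with hγ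
  set M := ∫ g, ‖S g‖ ∂γ with hMdef
  have hn0 : (0 : ℝ) ≤ n := Nat.cast_nonneg n
  have hM0 : 0 < M := by linarith
  set P := Measure.pi fun _ : Fin k => γ with hP
  have hunit : ∀ a ∈ N, ‖a‖ = 1 := fun a ha => by
    simpa using hNs (hNf.mem_toFinset.1 ha)
  have hmp : ∀ a ∈ N, MeasurePreserving (fun ω : Fin k → EuclideanSpace ℝ (Fin m) =>
      ∑ i, a i • ω i) P γ := fun a ha => ⟨by fun_prop, map_comb a (hunit a ha)⟩
  have hdev : Integrable (fun A => |‖S A‖ - M|) γ :=
    ((integrable_norm_clm S).sub (integrable_const _)).abs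
  have hint : ∀ a ∈ N, Integrable (fun ω : Fin k → EuclideanSpace ℝ (Fin m) =>
      |‖S (∑ i, a i • ω i)‖ - M|) P := fun a ha =>
    (hmp a ha).integrable_comp_of_integrable hdev
  have heq : ∀ a ∈ N, ∫ ω, |‖S (∑ i, a i • ω i)‖ - M| ∂P = ∫ A, |‖S A‖ - M| ∂γ := by
    intro a ha
    conv_rhs => rw [← (hmp a ha).map_eq]
    rw [integral_map (hmp a ha).aemeasurable (by fun_prop)]
  obtain ⟨ω, hω⟩ := exists_le_integral (μ := P) (integrable_finsetSum N hint)
  rw [integral_finsetSum N hint, Finset.sum_congr rfl heq, Finset.sum_const, nsmul_eq_mul,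
    ← hn] at hω
  have hbound : (n : ℝ) * ∫ A, |‖S A‖ - M| ∂γ ≤ M / 10 := by
    have h1 : (n : ℝ) * (4 / ((80 * n + 1 : ℕ) : ℝ)) ≤ 1 / 20 := by
      push_cast
      rw [← mul_div_assoc, div_le_iff₀ (by positivity)]
      linarith
    calc (n : ℝ) * ∫ A, |‖S A‖ - M| ∂γ ≤ n * (4 / ((80 * n + 1 : ℕ) : ℝ) * M + 4) := by gcongr
      _ = n * (4 / ((80 * n + 1 : ℕ) : ℝ)) * M + 4 * n := by ring
      _ ≤ 1 / 20 * M + 4 * n := by gcongr
      _ ≤ M / 10 := by linarith
  let U₀ : EuclideanSpace ℝ (Fin k) →ₗ[ℝ] X :=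
    { toFun := fun a => S (∑ i, a i • ω i)
      map_add' := fun a b => by simp [add_smul, Finset.sum_add_distrib]
      map_smul' := fun c a => by simp [mul_smul, Finset.smul_sum] }
  set U : EuclideanSpace ℝ (Fin k) →L[ℝ] X := LinearMap.toContinuousLinearMap U₀ with hU
  have hUN : ∀ a ∈ N, |‖U a‖ - M| ≤ M / 10 := by
    intro a ha
    refine le_trans ?_ (hω.trans hbound)
    exact Finset.single_le_sum (f := fun a : EuclideanSpace ℝ (Fin k) =>
      |‖S (∑ i, a i • ω i)‖ - M|) (fun _ _ => abs_nonneg _) ha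
  have hnear : ∀ a : EuclideanSpace ℝ (Fin k), ‖a‖ = 1 →
      |‖U a‖ - M| ≤ M / 10 + ‖U‖ / 4 := by
    intro a ha
    have := hNc (show a ∈ Metric.sphere (0 : EuclideanSpace ℝ (Fin k)) 1 by simpa using ha)
    simp only [Set.mem_iUnion] at this
    obtain ⟨b, hb, hab⟩ := this
    have h1 := hUN b (hNf.mem_toFinset.2 hb)
    have h2 : |‖U a‖ - ‖U b‖| ≤ ‖U‖ / 4 := by
      calc |‖U a‖ - ‖U b‖| ≤ ‖U a - U b‖ := abs_norm_sub_norm_le _ _
        _ = ‖U (a - b)‖ := by rw [map_sub]
        _ ≤ ‖U‖ * ‖a - b‖ := U.le_opNorm _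
        _ ≤ ‖U‖ * (1 / 4) := by
            gcongr
            rw [← dist_eq_norm]
            exact (Metric.mem_ball.1 hab).le
        _ = ‖U‖ / 4 := by ring
    have := abs_sub_le ‖U a‖ ‖U b‖ M
    linarith
  have hUn : ‖U‖ ≤ 3 / 2 * M := by
    have : ‖U‖ ≤ M + M / 10 + ‖U‖ / 4 := by
      refine ContinuousLinearMap.opNorm_le_of_unit_norm (by positivity) fun a ha => ?_
      have := (abs_le.1 (hnear a ha)).2
      linarith
    linarith
  have hlow : ∀ a : EuclideanSpace ℝ (Fin k), M / 2 * ‖a‖ ≤ ‖U a‖ := by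
    intro a
    rcases eq_or_ne a 0 with rfl | ha
    · simp
    have hpos : 0 < ‖a‖ := norm_pos_iff.2 ha
    have h1 : ‖(‖a‖⁻¹ : ℝ) • a‖ = 1 := by
      rw [norm_smul, norm_inv, norm_norm, inv_mul_cancel₀ hpos.ne']
    have h2 := (abs_le.1 (hnear _ h1)).1
    rw [map_smul, norm_smul, norm_inv, norm_norm] at h2
    have h3 : M / 2 ≤ ‖a‖⁻¹ * ‖U a‖ := by linarith
    rw [inv_mul_eq_div, le_div_iff₀ hpos] at h3
    exact h3
  refine ⟨(3 / 2 * M)⁻¹ • U₀, fun a => ?_⟩
  have e : ‖((3 / 2 * M)⁻¹ • U₀) a‖ = ‖U a‖ / (3 / 2 * M) := by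
    rw [LinearMap.smul_apply, norm_smul, Real.norm_eq_abs, abs_of_pos (by positivity),
      inv_mul_eq_div]
    rfl
  rw [e]
  constructor
  · rw [← mul_div_assoc, le_div_iff₀ (by positivity)]
    have := hlow a
    linarith
  · rw [div_le_iff₀ (by positivity)]
    calc ‖U a‖ ≤ ‖U‖ * ‖a‖ := U.le_opNorm a
      _ ≤ 3 / 2 * M * ‖a‖ := by gcongr
      _ = _ := by ring

end Crest.Agent.Lib.Dvoretzky
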