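import Mathlib

/-!
# The Dvoretzky–Rogers lemma (maximal determinant proof)
-/

namespace Crest.Agent.Lib.Dvoretzky

open Module

/-- The determinant of `id + P`, with `P` the orthogonal projection onto `W`. -/
theorem det_id_add_starProjection {E : Type*} [NormedAddCommGroup E] [InnerProductSpace ℝ E]
    [FiniteDimensional ℝ E] (W : Submodule ℝ E) :
    LinearMap.det ((LinearMap.id : E →ₗ[ℝ] E) + (W.starProjection : E →ₗ[ℝ] E)) =
      2 ^ finrank ℝ W := by
  set P : E →ₗ[ℝ] E := (W.starProjection : E →ₗ[ℝ] E) with hP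
  have hproj : LinearMap.IsProj W P :=
    ⟨fun x => W.starProjection_apply_mem x, fun x hx => (W.starProjection_eq_self_iff).2 hx⟩
  set e := W.prodEquivOfIsCompl (LinearMap.ker P) hproj.isCompl with he
  have h1 : (LinearMap.id : E →ₗ[ℝ] E) + P =
      (e : W × LinearMap.ker P →ₗ[ℝ] E) ∘ₗ
        (LinearMap.prodMap ((2 : ℝ) • LinearMap.id) LinearMap.id) ∘ₗ
        (e.symm : E →ₗ[ℝ] W × LinearMap.ker P) := by
    refine LinearMap.ext fun x => ?_
    obtain ⟨⟨a, b⟩, rfl⟩ := e.surjective x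
    have ha : P a = a := hproj.map_id _ a.2
    have hb : P b = 0 := b.2
    have hab : ∀ (a : W) (b : LinearMap.ker P), e (a, b) = (a : E) + b := fun a b => rfl
    simp only [LinearMap.add_apply, LinearMap.id_apply, LinearMap.comp_apply,
      LinearEquiv.coe_coe, LinearEquiv.symm_apply_apply, LinearMap.prodMap_apply,
      LinearMap.smul_apply]
    simp only [hab, map_add, ha, hb, Submodule.coe_smul]
    rw [two_smul]
    abel
  rw [h1, LinearMap.det_conj, LinearMap.det_prodMap, LinearMap.det_smul, LinearMap.det_id,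
    LinearMap.det_id, mul_one, mul_one]

/-- A contraction of maximal determinant. -/
theorem exists_max_det {X E : Type*} [NormedAddCommGroup X] [NormedSpace ℝ X]
    [NormedAddCommGroup E] [NormedSpace ℝ E] [FiniteDimensional ℝ E]
    (J : E →ₗ[ℝ] X) (hJ : LinearMap.ker J = ⊥) :
    ∃ A : E →ₗ[ℝ] E, (∀ x, ‖J (A x)‖ ≤ ‖x‖) ∧ LinearMap.det A ≠ 0 ∧
      ∀ B : E →ₗ[ℝ] E, (∀ x, ‖J (B x)‖ ≤ ‖x‖) → |LinearMap.det B| ≤ |LinearMap.det A| := by
  obtain ⟨K, hK, hanti⟩ := J.exists_antilipschitzWith hJ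
  let Jc : E →L[ℝ] X := LinearMap.toContinuousLinearMap J
  let T : Set (E →L[ℝ] E) := {A | ∀ x, ‖J (A x)‖ ≤ ‖x‖}
  have hclosed : IsClosed T := by
    have : T = ⋂ x, {A : E →L[ℝ] E | ‖Jc (A x)‖ ≤ ‖x‖} := by
      ext A; simp [T, Jc]
    rw [this]
    refine isClosed_iInter fun x => isClosed_le ?_ continuous_const
    fun_prop
  have hbdd : Bornology.IsBounded T := by
    refine (Metric.isBounded_closedBall (x := (0 : E →L[ℝ] E)) (r := K)).subset fun A hA => ?_
    rw [mem_closedBall_zero_iff]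
    refine ContinuousLinearMap.opNorm_le_bound _ K.2 fun x => ?_
    have h1 := ZeroHomClass.bound_of_antilipschitz J hanti (A x)
    exact h1.trans (mul_le_mul_of_nonneg_left (hA x) K.2)
  have hcomp : IsCompact T := Metric.isCompact_of_isClosed_isBounded hclosed hbdd
  set c : ℝ := (‖Jc‖ + 1)⁻¹ with hc
  have hcpos : 0 < c := by positivity
  have hmem : (c • ContinuousLinearMap.id ℝ E) ∈ T := by
    intro x
    have h1 : ‖J x‖ ≤ ‖Jc‖ * ‖x‖ := Jc.le_opNorm x
    have h2 : c * ‖Jc‖ ≤ 1 := by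
      rw [hc, inv_mul_le_iff₀ (by positivity)]; linarith
    simp only [smul_apply, ContinuousLinearMap.id_apply, map_smul, norm_smul,
      Real.norm_of_nonneg hcpos.le]
    calc c * ‖J x‖ ≤ c * (‖Jc‖ * ‖x‖) := by gcongr
      _ = (c * ‖Jc‖) * ‖x‖ := by ring
      _ ≤ 1 * ‖x‖ := by gcongr
      _ = ‖x‖ := one_mul _
  have hcont : ContinuousOn (fun A : E →L[ℝ] E => |A.det|) T :=
    (ContinuousLinearMap.continuous_det.abs).continuousOn
  obtain ⟨A, hA, hmax⟩ := hcomp.exists_isMaxOn ⟨_, hmem⟩ hcont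
  refine ⟨A, hA, ?_, fun B hB => ?_⟩
  · have h1 : |(c • ContinuousLinearMap.id ℝ E).det| ≤ |A.det| := hmax hmem
    have h2 : (c • ContinuousLinearMap.id ℝ E).det = c ^ finrank ℝ E := by
      change LinearMap.det (c • (LinearMap.id : E →ₗ[ℝ] E)) = _
      rw [LinearMap.det_smul, LinearMap.det_id, mul_one]
    rw [h2, abs_of_pos (pow_pos hcpos _)] at h1
    intro h0
    have h3 : A.det = 0 := h0
    rw [h3, abs_zero] at h1
    exact absurd h1 (not_le.2 (pow_pos hcpos _))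
  · have : LinearMap.toContinuousLinearMap B ∈ T := hB
    exact hmax this

/-- In a large subspace, a maximal-determinant contraction has a vector not shrunk much. -/
theorem exists_unit_of_max_det {X E : Type*} [NormedAddCommGroup X] [NormedSpace ℝ X]
    [NormedAddCommGroup E] [InnerProductSpace ℝ E] [FiniteDimensional ℝ E]
    (J : E →ₗ[ℝ] X) (A : E →ₗ[ℝ] E) (hA : ∀ x, ‖J (A x)‖ ≤ ‖x‖) (hdet : LinearMap.det A ≠ 0)
    (hmax : ∀ B : E →ₗ[ℝ] E, (∀ x, ‖J (B x)‖ ≤ ‖x‖) → |LinearMap.det B| ≤ |LinearMap.det A|)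
    (W : Submodule ℝ E) (hW : finrank ℝ E ≤ 2 * finrank ℝ W) (hW0 : 0 < finrank ℝ W) :
    ∃ y ∈ W, ‖y‖ = 1 ∧ (1 / 3 : ℝ) ≤ ‖J (A y)‖ := by
  by_contra hcon
  push Not at hcon
  have hsmall : ∀ y ∈ W, ‖J (A y)‖ ≤ (1 / 3 : ℝ) * ‖y‖ := by
    intro y hy
    rcases eq_or_ne y 0 with rfl | hy0
    · simp
    · have hn : 0 < ‖y‖ := norm_pos_iff.2 hy0
      have h1 := hcon (‖y‖⁻¹ • y) (W.smul_mem _ hy) (by
        rw [norm_smul, norm_inv, norm_norm, inv_mul_cancel₀ hn.ne'])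
      rw [map_smul, map_smul, norm_smul, norm_inv, norm_norm, inv_mul_lt_iff₀ hn] at h1
      linarith
  set P : E →ₗ[ℝ] E := (W.starProjection : E →ₗ[ℝ] E) with hP
  have hB : ∀ x, ‖J (((3 / 4 : ℝ) • (A ∘ₗ (LinearMap.id + P))) x)‖ ≤ ‖x‖ := by
    intro x
    have h1 : ‖J (A (P x))‖ ≤ (1 / 3 : ℝ) * ‖P x‖ := hsmall _ (W.starProjection_apply_mem x)
    have h2 : ‖P x‖ ≤ ‖x‖ := W.norm_starProjection_apply_le x
    have h3 := hA x
    have h4 := norm_add_le (J (A x)) (J (A (P x)))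
    simp only [LinearMap.smul_apply, LinearMap.comp_apply, LinearMap.add_apply,
      LinearMap.id_apply, map_add, map_smul, norm_smul]
    rw [Real.norm_of_nonneg (by norm_num)]
    linarith
  have h1 := hmax _ hB
  rw [LinearMap.det_smul, LinearMap.det_comp, hP, det_id_add_starProjection, abs_mul, abs_mul,
    abs_of_pos (by positivity : (0 : ℝ) < (3 / 4) ^ finrank ℝ E),
    abs_of_pos (by positivity : (0 : ℝ) < 2 ^ finrank ℝ W)] at h1
  have hd : 0 < |LinearMap.det A| := abs_pos.2 hdet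
  have h2 : (3 / 4 : ℝ) ^ finrank ℝ E * 2 ^ finrank ℝ W ≤ 1 := by
    by_contra h
    push Not at h
    nlinarith
  have h3 : (3 / 4 : ℝ) ^ (2 * finrank ℝ W) ≤ (3 / 4 : ℝ) ^ finrank ℝ E :=
    pow_le_pow_of_le_one (by norm_num) (by norm_num) hW
  have h4 : (1 : ℝ) < (3 / 4 : ℝ) ^ (2 * finrank ℝ W) * 2 ^ finrank ℝ W := by
    rw [pow_mul, ← mul_pow]
    exact one_lt_pow₀ (by norm_num) hW0.ne'
  have h5 : (0 : ℝ) < 2 ^ finrank ℝ W := by positivity
  nlinarith

/-- Greedy choice of an orthonormal family of good vectors. -/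
theorem exists_orthonormal_good {E : Type*} [NormedAddCommGroup E] [InnerProductSpace ℝ E]
    [FiniteDimensional ℝ E] (Q : E → Prop) (m : ℕ)
    (hQ : ∀ W : Submodule ℝ E, finrank ℝ E < finrank ℝ W + m → ∃ y ∈ W, ‖y‖ = 1 ∧ Q y) :
    ∀ k ≤ m, ∃ y : Fin k → E, Orthonormal ℝ y ∧ ∀ i, Q (y i) := by
  intro k
  induction k with
  | zero => intro _; exact ⟨Fin.elim0, orthonormal_iff_ite.2 fun i => i.elim0, fun i => i.elim0⟩
  | succ k ih =>
    intro hk
    obtain ⟨y, hy, hyQ⟩ := ih (by omega)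
    let K : Submodule ℝ E := Submodule.span ℝ (Set.range y)
    have h1 : finrank ℝ K ≤ k := by
      have := finrank_range_le_card (R := ℝ) y
      simpa [Set.finrank] using this
    have h2 := K.finrank_add_finrank_orthogonal
    obtain ⟨z, hz, hz1, hzQ⟩ := hQ Kᗮ (by omega)
    have hyz : ∀ i, inner ℝ (y i) z = 0 := fun i =>
      (Submodule.mem_orthogonal K z).1 hz _ (Submodule.subset_span ⟨i, rfl⟩)
    refine ⟨Fin.cons z y, ?_, fun i => ?_⟩
    · rw [orthonormal_iff_ite] at hy ⊢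
      intro i j
      refine Fin.cases ?_ (fun i => ?_) i <;> refine Fin.cases ?_ (fun j => ?_) j
      · simp [hz1]
      · simp only [Fin.cons_zero, Fin.cons_succ]
        rw [real_inner_comm, hyz, if_neg (Fin.succ_ne_zero j).symm]
      · simp only [Fin.cons_zero, Fin.cons_succ]
        rw [hyz, if_neg (Fin.succ_ne_zero i)]
      · simp only [Fin.cons_succ, hy i j, Fin.succ_inj]
    · refine Fin.cases ?_ (fun i => ?_) i
      · simpa using hzQ
      · simpa using hyQ i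

/-- The Dvoretzky–Rogers lemma. -/
theorem dvoretzky_rogers {X : Type*} [NormedAddCommGroup X] [NormedSpace ℝ X]
    (hX : ¬ FiniteDimensional ℝ X) (m : ℕ) :
    ∃ S : EuclideanSpace ℝ (Fin m) →ₗ[ℝ] X, (∀ g, ‖S g‖ ≤ ‖g‖) ∧
      ∀ i, (1/3 : ℝ) ≤ ‖S (EuclideanSpace.single i 1)‖ := by
  classical
  have hrank : ((2 * m : ℕ) : Cardinal) ≤ Module.rank ℝ X := by
    by_contra h
    push Not at h
    exact hX (Module.rank_lt_aleph0_iff.1 (h.trans Cardinal.natCast_lt_aleph0))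
  obtain ⟨v, hv⟩ := exists_linearIndependent_of_le_rank hrank
  let E := EuclideanSpace ℝ (Fin (2 * m))
  let b : Basis (Fin (2 * m)) ℝ E := (EuclideanSpace.basisFun (Fin (2 * m)) ℝ).toBasis
  let J : E →ₗ[ℝ] X := b.constr ℝ v
  have hJ : LinearMap.ker J = ⊥ :=
    LinearMap.ker_eq_bot.2 (b.injective_constr_of_linearIndependent hv)
  obtain ⟨A, hA, hdet, hmax⟩ := exists_max_det J hJ
  have hE : finrank ℝ E = 2 * m := by simp [E]
  obtain ⟨y, hy, hyQ⟩ := exists_orthonormal_good (fun y : E => (1 / 3 : ℝ) ≤ ‖J (A y)‖) m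
    (fun W hW => exists_unit_of_max_det J A hA hdet hmax W (by omega) (by omega)) m le_rfl
  let b' : Basis (Fin m) ℝ (EuclideanSpace ℝ (Fin m)) := (EuclideanSpace.basisFun (Fin m) ℝ).toBasis
  let U : EuclideanSpace ℝ (Fin m) →ₗ[ℝ] E := b'.constr ℝ y
  have hUb : ∀ i, U (b' i) = y i := fun i => b'.constr_basis ℝ y i
  have hb' : Orthonormal ℝ b' := (EuclideanSpace.basisFun (Fin m) ℝ).orthonormal
  have hU : Orthonormal ℝ (U ∘ b') := by
    have : U ∘ b' = y := funext hUb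
    rw [this]; exact hy
  have hUn : ∀ g, ‖U g‖ = ‖g‖ := fun g => (U.isometryOfOrthonormal hb' hU).norm_map g
  refine ⟨J ∘ₗ A ∘ₗ U, fun g => ?_, fun i => ?_⟩
  · exact (hA (U g)).trans (hUn g).le
  · have h1 : (EuclideanSpace.single i (1 : ℝ) : EuclideanSpace ℝ (Fin m)) = b' i := by
      simp [b']
    rw [h1]
    change (1 / 3 : ℝ) ≤ ‖J (A (U (b' i)))‖
    rw [hUb]
    exact hyQ i

end Crest.Agent.Lib.Dvoretzky
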