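import Crest.Agent.Lib.Dvoretzky.Basic
import Crest.Agent.Lib.Dvoretzky.Rogers

/-! # Dvoretzky's theorem with constant 3 -/

namespace Crest.Agent.Lib.Dvoretzky

/-- Every infinite-dimensional real normed space contains `3`-isomorphic copies of `ℓ₂^k`. -/
theorem dvoretzky {X : Type*} [NormedAddCommGroup X] [NormedSpace ℝ X]
    (hX : ¬ FiniteDimensional ℝ X) (k : ℕ) :
    ∃ T : EuclideanSpace ℝ (Fin k) →ₗ[ℝ] X, ∀ a, ‖a‖ ≤ 3 * ‖T a‖ ∧ ‖T a‖ ≤ ‖a‖ :=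
  dvoretzky_of_rogers (dvoretzky_rogers hX) k

end Crest.Agent.Lib.Dvoretzky
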